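import Vale.Agent.Lib.P162.QF.Coef
import Vale.Agent.Lib.P162.QF.Count

/-!
# The core lemma: the parts C0, C1 (Coef), C4, C5 (Count); the parts C2, C3 are in Bonami.lean
-/
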